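/-
R290/Defs: all definitions for row 290 (complexity of Weisfeiler-Leman).  Author: helper86.  FROZEN.

Overview of the proof.
* `Game K G H`  : the bijective `K`-pebble game (= `SEquiv K` = `JEquiv (K-1)`).
* `XDup K var b`: the `K`-pebble game on a system of 3-variable XOR equations (pebbles on equations).
* `CFI ne var b`: a connected subcubic CFI graph of such a system.
* `PS`          : a "product system": a small XOR system whose instances are indexed by messages
  `m : Fin (r+1) → D`; its XOR system is the product with a path of `r` rows and long chains.  With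
  `r+1` pebbles the game on it is exactly unit propagation on the instances.
* `Horn`        : Horn rules with coordinatewise index maps, turned into a `PS`.
* `GM`          : first-order stack machines; `gmHorn` is the Horn system of the computation tableau.
* `varN`, `adjN`, ...: the numeric (polynomial-time) form of the construction.
-/
import Mathlib
import Crest.Prelude.Def_WL
import Crest.Prelude.Def_ParityLift
import Crest.Prelude.Def_ExpTime
import Crest.Prelude.Def_WordRAM
import Crest.Agent.Lib.PolyTime.More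

set_option autoImplicit false

namespace Crest.Agent.R290

/-- Forces the equation lemmas of `unionAdj` to be generated once, here. -/
theorem unionAdj_mixed {n m : ℕ} (G : Fin n → Fin n → Bool) (H : Fin m → Fin m → Bool) (a : Fin n)
    (c : Fin m) : Crest.WLRefine.ParityLift.unionAdj G H (Sum.inl a) (Sum.inr c) = false := by
  simp [Crest.WLRefine.ParityLift.unionAdj]

/-! ### The bijective pebble game -/

/-- `W` is a winning family of positions (lists of pebbled pairs) for Duplicator in the bijective
`K`-pebble game on `G`, `H`. -/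
structure Win {V V' : Type} (K : ℕ) (G : V → V → Prop) (H : V' → V' → Prop)
    (W : List (V × V') → Prop) : Prop where
  nil : W []
  sub : ∀ {l l' : List (V × V')}, W l → l' ⊆ l → W l'
  eq_iff : ∀ {l : List (V × V')} {p q : V × V'}, W l → p ∈ l → q ∈ l → (p.1 = q.1 ↔ p.2 = q.2)
  adj : ∀ {l : List (V × V')} {p q : V × V'}, W l → p ∈ l → q ∈ l → (G p.1 q.1 ↔ H p.2 q.2)
  ext : ∀ {l : List (V × V')}, W l → l.length < K → ∃ π : V ≃ V', ∀ z, W ((z, π z) :: l)

/-- Duplicator wins the bijective `K`-pebble game. -/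
def Game {V V' : Type} (K : ℕ) (G : V → V → Prop) (H : V' → V' → Prop) : Prop :=
  ∃ W, Win K G H W

/-- A Boolean adjacency as a relation. -/
def mat {V : Type} (A : V → V → Bool) : V → V → Prop := fun a b => A a b = true

/-- The matrix on `Fin n` of a function on numbers. -/
def matOf (n : ℕ) (A : ℕ → ℕ → Bool) : Fin n → Fin n → Bool := fun u w => A u w

/-- Keep the first `N` vertices, pad with isolated vertices and make vertex `n - 1` universal. -/
def apexN (n N : ℕ) (A : ℕ → ℕ → Bool) (u w : ℕ) : Bool :=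
  if u + 1 = n then decide (w + 1 ≠ n) else if w + 1 = n then true
  else decide (u < N) && decide (w < N) && A u w

/-- The code of `matOf n A`. -/
def codeN (n : ℕ) (A : ℕ → ℕ → Bool) : List Bool :=
  Crest.Enc.natCode n ++ (List.range n).flatMap fun u => (List.range n).map fun w => A u w

/-- The statistic separating the two parity lifts: `0` off cliques, on cliques the sign of the number
of pairs (3-set of positions, common neighbour). -/
def stat {V : Type} [Fintype V] (X : V → V → Bool) {t : ℕ} (x : Fin t → V) : ℤ :=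
  if ∀ i j, i ≠ j → X (x i) (x j) = true then
    (-1) ^ (∑ P ∈ Finset.powersetCard 3 (Finset.univ : Finset (Fin t)),
      (Finset.univ.filter fun z => ∀ p ∈ P, X (x p) z = true).card)
  else 0

/-! ### The pebble game on XOR systems -/

section Xor
variable {E Y : Type}

/-- `g` satisfies equation `e`. -/
def Sat (var : E → Fin 3 → Y) (b : E → ZMod 2) (g : Y → ZMod 2) (e : E) : Prop :=
  g (var e 0) + g (var e 1) + g (var e 2) = b e

/-- `g'` agrees with `g` on the variables of equation `e`. -/
def Agree (var : E → Fin 3 → Y) (g g' : Y → ZMod 2) (e : E) : Prop :=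
  ∀ s, g' (var e s) = g (var e s)

/-- A winning family for Duplicator: positions are lists of pebbled equations with an assignment. -/
structure XWin (K : ℕ) (var : E → Fin 3 → Y) (b : E → ZMod 2)
    (W : List E → (Y → ZMod 2) → Prop) : Prop where
  nil : ∃ g, W [] g
  sub : ∀ {S S' : List E} {g : Y → ZMod 2}, W S g → S' ⊆ S → W S' g
  sat : ∀ {S : List E} {g : Y → ZMod 2} {e : E}, W S g → e ∈ S → Sat var b g e
  ext : ∀ {S : List E} {g : Y → ZMod 2}, W S g → S.length < K → ∀ z,
    ∃ g', (∀ e ∈ S, Agree var g g' e) ∧ W (z :: S) g'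

/-- Duplicator wins the `K`-pebble game on the XOR system. -/
def XDup (K : ℕ) (var : E → Fin 3 → Y) (b : E → ZMod 2) : Prop := ∃ W, XWin K var b W

/-- The XOR system has a solution. -/
def Solvable (var : E → Fin 3 → Y) (b : E → ZMod 2) : Prop := ∃ g, ∀ e, Sat var b g e

end Xor

/-! ### The subcubic CFI graph -/

/-- The 37 vertices of the gadget of one equation.  For each of its three slots `s`: a spine vertex
`p`, a spine subdivision vertex `sp`, an anchor `q`, and pairs `M`, `N`, `T` (tooth), `B` (backbone);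
plus four equation vertices `Q`. -/
inductive Kind : Type
  | p (s : Fin 3) | sp (s : Fin 3) | q (s : Fin 3)
  | M (s : Fin 3) (a : ZMod 2) | N (s : Fin 3) (a : ZMod 2)
  | T (s : Fin 3) (a : ZMod 2) | B (s : Fin 3) (a : ZMod 2)
  | Q (a₀ a₁ : ZMod 2)
  deriving DecidableEq, Fintype

/-- The slot of a gadget vertex (`0` for equation vertices). -/
def Kind.slot : Kind → Fin 3
  | .p s | .sp s | .q s | .M s _ | .N s _ | .T s _ | .B s _ => s
  | .Q _ _ => 0

/-- The class of a gadget vertex: erase the values. -/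
def Kind.cls : Kind → Kind
  | .M s _ => .M s 0 | .N s _ => .N s 0 | .T s _ => .T s 0 | .B s _ => .B s 0
  | .Q _ _ => .Q 0 0
  | κ => κ

/-- The value that the equation vertex `Q a₀ a₁` gives to slot `s` when the right-hand side is `β`. -/
def qval (s : Fin 3) (a₀ a₁ β : ZMod 2) : ZMod 2 :=
  if s = 0 then a₀ else if s = 1 then a₁ else a₀ + a₁ + β

/-- Directed adjacency between kinds, given the relations between the slot numbers `σ`, `σ'` and
equations of the two vertices: `same : σ = σ'`, `succ : σ = σ' + 1`, `link`: `σ'` is the next slot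
with the variable of `σ`, `first`: no earlier slot has the variable of `σ`, `sameE`: same equation,
`β`: right-hand side of the equation of the first vertex. -/
def ArcP (κ κ' : Kind) (same succ link first sameE : Prop) (β : ZMod 2) : Prop :=
  match κ, κ' with
  | .sp _, .p _ => same ∨ succ
  | .p _, .q _ => same
  | .q _, .M _ _ => same
  | .M _ a, .N _ a' => same ∧ a = a'
  | .M _ a, .T _ a' => same ∧ a = a'
  | .N _ a, .B _ a' => same ∧ a = a'
  | .B _ a, .B _ a' => (link ∧ a = a') ∨ (same ∧ first ∧ a ≠ a')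
  | .T s a, .Q a₀ a₁ => sameE ∧ a = qval s a₀ a₁ β
  | _, _ => False

/-- `σ'` is the next slot after `σ` carrying the same variable. -/
def Link {Y : Type} (ns : ℕ) (var : ℕ → Y) (σ σ' : ℕ) : Prop :=
  σ < σ' ∧ var σ = var σ' ∧ ∀ τ < ns, σ < τ → τ < σ' → var τ ≠ var σ

/-- No earlier slot carries the variable of `σ`. -/
def First {Y : Type} (ns : ℕ) (var : ℕ → Y) (σ : ℕ) : Prop :=
  ∀ τ < ns, τ < σ → var τ ≠ var σ

/-- Directed adjacency; a vertex is (equation number, kind), its slot number is `3 e + slot`. -/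
def ArcN {Y : Type} (ne : ℕ) (var : ℕ → Y) (b : ℕ → ZMod 2) (e : ℕ) (κ : Kind) (e' : ℕ) (κ' : Kind) :
    Prop :=
  ArcP κ κ' (3 * e + κ.slot.val = 3 * e' + κ'.slot.val) (3 * e + κ.slot.val = 3 * e' + κ'.slot.val + 1)
    (Link (3 * ne) var (3 * e + κ.slot.val) (3 * e' + κ'.slot.val))
    (First (3 * ne) var (3 * e + κ.slot.val)) (e = e') (b e)

/-- The CFI graph of the system with `ne` equations whose slot number `σ = 3 e + s` carries the
variable `var σ` and whose equation `e` has right-hand side `b e`. -/
def CFI {Y : Type} (ne : ℕ) (var : ℕ → Y) (b : ℕ → ZMod 2) (u w : Fin ne × Kind) : Prop :=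
  ArcN ne var b u.1 u.2 w.1 w.2 ∨ ArcN ne var b w.1 w.2 u.1 u.2

/-- The XOR system of slot-numbered variables. -/
def varE {Y : Type} (ne : ℕ) (var : ℕ → Y) : Fin ne → Fin 3 → Y := fun e s => var (3 * e.val + s.val)

/-- Right-hand sides restricted to `Fin ne`. -/
def rhsE (ne : ℕ) (b : ℕ → ZMod 2) : Fin ne → ZMod 2 := fun e => b e.val

theorem card_kind : Fintype.card Kind = 37 := by decide

/-- A numbering of the kinds. -/
noncomputable def kindEquiv : Fin 37 ≃ Kind := (Fintype.equivFinOfCardEq card_kind).symm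

/-- The kind of vertex number `u`. -/
noncomputable def kindOf (u : ℕ) : Kind := kindEquiv ⟨u % 37, Nat.mod_lt _ (by norm_num)⟩

open Classical in
/-- Numeric adjacency of the CFI graph: vertex `u` is `(u / 37, kindOf u)`. -/
noncomputable def cfiN {Y : Type} (ne : ℕ) (var : ℕ → Y) (b : ℕ → ZMod 2) (u w : ℕ) : Bool :=
  decide (ArcN ne var b (u / 37) (kindOf u) (w / 37) (kindOf w) ∨
    ArcN ne var b (w / 37) (kindOf w) (u / 37) (kindOf u))

/-! ### Product systems -/

/-- A product system with `r` rows: junctions `J` with three slots; slot `s` of junction `j` is joined by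
a long chain to the hub `hub j s`, message coordinates being transformed by `pi j s`. -/
structure PS (J X D : Type) (r : ℕ) where
  used : J → Fin 3 → Bool
  hub : J → Fin 3 → X
  pi : J → Fin 3 → Fin (r + 1) → D → D
  rhs : J → ZMod 2

/-- Coordinatewise action on messages. -/
def act {D : Type} {r : ℕ} (π : Fin (r + 1) → D → D) (m : Fin (r + 1) → D) : Fin (r + 1) → D :=
  fun i => π i (m i)

/-- Two messages agree on the inner coordinates. -/
def InnerEq {D : Type} {r : ℕ} (m m' : Fin (r + 1) → D) : Prop :=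
  ∀ i : Fin (r + 1), i ≠ 0 → i ≠ Fin.last r → m i = m' i

/-- Variables of the XOR system of a product system. -/
inductive Var (J X D : Type) (r : ℕ) : Type
  | zero
  | hub (x : X) (i : Fin r) (d e : D)
  | wire (c : J × Fin 3) (j : ℕ) (i : Fin r) (d e : D)
  | mid (c : J × Fin 3) (j : ℕ) (i : Fin r) (d e : D)
  | v (c : J × Fin 3) (j : ℕ) (i : Fin (r + 1)) (d : D)

/-- Equations: the zero equation, the two halves of column `j < r + 2` of a chain, junctions. -/
inductive Eqn (J D : Type) (r : ℕ) : Type
  | zero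
  | A (c : J × Fin 3) (j : Fin (r + 2)) (i : Fin r) (d e : D)
  | B (c : J × Fin 3) (j : Fin (r + 2)) (i : Fin r) (d e : D)
  | J (a : J) (i : Fin r) (d e : D)

namespace PS
variable {J X D : Type} {r : ℕ} (S : PS J X D r)

/-- Wire `j` of chain `c` (wire `0` is the hub, read through `pi`; wire `r + 2` ends at the junction). -/
def wireV (c : J × Fin 3) (j : ℕ) (i : Fin r) (d e : D) : Var J X D r :=
  if j = 0 then .hub (S.hub c.1 c.2) i (S.pi c.1 c.2 i.castSucc d) (S.pi c.1 c.2 i.succ e)
  else .wire c j i d e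

/-- Vertical variables; those at the two outer boundaries are the zero variable. -/
def vV (_S : PS J X D r) (c : J × Fin 3) (j : ℕ) (i : Fin (r + 1)) (d : D) : Var J X D r :=
  if i = 0 ∨ i = Fin.last r then .zero else .v c j i d

/-- The variables of each equation. -/
def var : Eqn J D r → Fin 3 → Var J X D r
  | .zero, _ => .zero
  | .A c j i d e, s =>
      if s = 0 then S.wireV c j i d e else if s = 1 then S.vV c j i.castSucc d else .mid c j i d e
  | .B c j i d e, s =>
      if s = 0 then .mid c j i d e else if s = 1 then S.vV c j i.succ e else S.wireV c (j + 1) i d e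
  | .J a i d e, s => if S.used a s = true then S.wireV (a, s) (r + 2) i d e else .zero

/-- The right-hand sides: `rhs` in row `0` of the junctions. -/
def b : Eqn J D r → ZMod 2
  | .J a i _ _ => if i.val = 0 then S.rhs a else 0
  | _ => 0

/-- Unit propagation on the instances `(hub, message)`. -/
inductive Der : X → (Fin (r + 1) → D) → Prop
  | step (a : J) (s : Fin 3) (m : Fin (r + 1) → D) : S.used a s = true →
      (∀ s', s' ≠ s → S.used a s' = true → Der (S.hub a s') (act (S.pi a s') m)) →
      Der (S.hub a s) (act (S.pi a s) m)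

/-- Arc consistency of the set `Kn` of instances known to be `0`. -/
def AC (Kn : X → (Fin (r + 1) → D) → Prop) : Prop :=
  ∀ (a : J) (m : Fin (r + 1) → D) (s₀ : Fin 3) (e : ZMod 2),
    (e ≠ 0 → ¬ Kn (S.hub a s₀) (act (S.pi a s₀) m)) →
    ∃ ε : Fin 3 → ZMod 2, ε s₀ = e ∧ (∀ s, Kn (S.hub a s) (act (S.pi a s) m) → ε s = 0) ∧
      ∑ s, (if S.used a s = true then ε s else 0) = S.rhs a

/-- Every hub that occurs has a reset junction `x + y + y = ..` whose `y` is derivable. -/
def Resets : Prop :=
  ∀ (a : J) (s : Fin 3), ∃ a' : J, (∀ s', S.used a' s' = true) ∧ S.hub a' 0 = S.hub a s ∧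
    (∀ i d, S.pi a' 0 i d = d) ∧ S.hub a' 1 = S.hub a' 2 ∧ S.pi a' 1 = S.pi a' 2 ∧
    ∀ m, S.Der (S.hub a' 1) (act (S.pi a' 1) m)

end PS

/-! ### Horn systems -/

/-- Horn rules `hd ρ ⟸ p1 ρ ∧ p2 ρ` (no premises when `ax ρ`); an atom is a hub with a mode, the mode
acting coordinatewise on messages through `app`.  Only the rules `ι i` are present. -/
structure Horn (I P X M D : Type) (r : ℕ) where
  ι : I → P
  hd : P → X × M
  p1 : P → X × M
  p2 : P → X × M
  ax : P → Bool
  acc : X × M
  idm : M
  app : M → Fin (r + 1) → D → D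
  app_id : ∀ i d, app idm i d = d

/-- Hub and mode of slot `s` of the junction `κ < 10` attached to rule `ρ`:
`0 : A + p1 + p1`, `1 : B + p2 + p2`, `2 : hd + A + B`, `3..8`: resets of `hd, p1, p2, A, B, acc`,
`9`: the goal `acc + acc = 1`. -/
def slotOf {P X M : Type} (hd p1 p2 acc : X × M) (idm : M) (ρ : P) (κ s : ℕ) : (X ⊕ P × Bool) × M :=
  if s = 0 then
    (if κ = 0 ∨ κ = 6 then (Sum.inr (ρ, false), idm)
    else if κ = 1 ∨ κ = 7 then (Sum.inr (ρ, true), idm)
    else if κ = 2 then (Sum.inl hd.1, hd.2)
    else if κ = 3 then (Sum.inl hd.1, idm)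
    else if κ = 4 then (Sum.inl p1.1, idm)
    else if κ = 5 then (Sum.inl p2.1, idm)
    else if κ = 8 then (Sum.inl acc.1, idm)
    else (Sum.inl acc.1, acc.2))
  else if κ = 0 then (Sum.inl p1.1, p1.2)
  else if κ = 1 then (Sum.inl p2.1, p2.2)
  else if κ = 2 then (Sum.inr (ρ, decide (s = 2)), idm)
  else (Sum.inl acc.1, acc.2)

/-- Which slots are used. -/
def usedOf (ax : Bool) (κ s : ℕ) : Bool :=
  if s = 0 then true else if κ = 2 then !ax else if κ = 9 then decide (s = 1) else true

namespace Horn
variable {I P X M D : Type} {r : ℕ} (H : Horn I P X M D r)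

/-- Slot data of the junction `(i, κ)`. -/
def slot (a : I × Fin 10) (s : Fin 3) : (X ⊕ P × Bool) × M :=
  slotOf (H.hd (H.ι a.1)) (H.p1 (H.ι a.1)) (H.p2 (H.ι a.1)) H.acc H.idm (H.ι a.1) a.2.val s.val

/-- The product system of a Horn system. -/
def toPS : PS (I × Fin 10) (X ⊕ P × Bool) D r where
  used a s := usedOf (H.ax (H.ι a.1)) a.2.val s.val
  hub a s := (H.slot a s).1
  pi a s := H.app (H.slot a s).2
  rhs a := if a.2.val = 9 then 1 else 0

/-- An atom evaluated at a message. -/
def At (Tr : X → (Fin (r + 1) → D) → Prop) (x : X × M) (m : Fin (r + 1) → D) : Prop :=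
  Tr x.1 (act (H.app x.2) m)

/-- Horn derivability. -/
inductive HDer : X → (Fin (r + 1) → D) → Prop
  | ax (i : I) (m : Fin (r + 1) → D) : H.ax (H.ι i) = true →
      HDer (H.hd (H.ι i)).1 (act (H.app (H.hd (H.ι i)).2) m)
  | rule (i : I) (m : Fin (r + 1) → D) :
      HDer (H.p1 (H.ι i)).1 (act (H.app (H.p1 (H.ι i)).2) m) →
      HDer (H.p2 (H.ι i)).1 (act (H.app (H.p2 (H.ι i)).2) m) →
      HDer (H.hd (H.ι i)).1 (act (H.app (H.hd (H.ι i)).2) m)

/-- A model of the rules, depending on inner coordinates only, in which `acc` is false. -/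
structure Model (Tr : X → (Fin (r + 1) → D) → Prop) : Prop where
  inner : ∀ x m m', InnerEq m m' → Tr x m → Tr x m'
  closed : ∀ i m, (H.ax (H.ι i) = true ∨ (H.At Tr (H.p1 (H.ι i)) m ∧ H.At Tr (H.p2 (H.ι i)) m)) →
    H.At Tr (H.hd (H.ι i)) m
  rej : ∀ m, ¬ H.At Tr H.acc m

end Horn

/-! ### First-order stack machines -/

/-- A machine: for each label the stack it works on, the operation (`0` keep, `1` pop, `o ≥ 2` push the
symbol `o - 1`) and the table of next labels indexed by the top symbol (`0` when empty). -/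
abbrev GM : Type := List ℕ × List ℕ × List (List ℕ)

namespace GM

/-- The common bound on labels, stacks and symbols. -/
def A (τ : GM) : ℕ := τ.1.length
/-- The stack of label `q`. -/
def stk (τ : GM) (q : ℕ) : ℕ := τ.1.getD q 0
/-- The operation of label `q`. -/
def op (τ : GM) (q : ℕ) : ℕ := τ.2.1.getD q 0
/-- The next label. -/
def nxt (τ : GM) (q a : ℕ) : ℕ := (τ.2.2.getD q []).getD a 0

/-- Well-formedness. -/
structure WF (τ : GM) : Prop where
  three : 3 ≤ A τ
  stk : ∀ q, stk τ q < A τ
  op : ∀ q, op τ q ≤ A τ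
  nxt : ∀ q a, nxt τ q a < A τ

/-- One step on a configuration (label, stacks). -/
def step (τ : GM) (c : ℕ × List (List ℕ)) : ℕ × List (List ℕ) :=
  (nxt τ c.1 ((c.2.getD (stk τ c.1) []).headD 0),
    if op τ c.1 = 0 then c.2
    else if op τ c.1 = 1 then c.2.set (stk τ c.1) (c.2.getD (stk τ c.1) []).tail
    else c.2.set (stk τ c.1) ((op τ c.1 - 1) :: c.2.getD (stk τ c.1) []))

/-- Start: label `0`, the input (bit `b` as symbol `b + 1`) on stack `0`. -/
def init (τ : GM) (y : List Bool) : ℕ × List (List ℕ) :=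
  (0, (List.replicate (A τ) []).set 0 (y.map fun b => b.toNat + 1))

/-- The label at time `t`; label `1` means acceptance. -/
def lab (τ : GM) (y : List Bool) (t : ℕ) : ℕ := ((step τ)^[t] (init τ y)).1

/-- The symbol at depth `h` of stack `k` at time `t` (`0` = blank). -/
def cell (τ : GM) (y : List Bool) (t k h : ℕ) : ℕ :=
  (((step τ)^[t] (init τ y)).2.getD k []).getD h 0

end GM

/-! ### The tableau Horn system -/

/-- A mode `(tag, j, c)` acts on base-`q` digit vectors. -/
abbrev Mode : Type := ℕ × ℕ × ℕ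

/-- Action on digit `i` with value `d`.  Tag `0`: `max · c` at digit `j` (identity for `c = 0`);
tag `1`: the constant number `c < q`; tags `2`, `3`: `lo j`, `hi j` with `val (hi j w) = val (lo j w) + 1`. -/
def modeApp (q : ℕ) (μ : Mode) (i d : ℕ) : ℕ :=
  if μ.1 = 0 then (if i = μ.2.1 then max d μ.2.2 else d)
  else if μ.1 = 1 then (if i = 0 then μ.2.2 else 0)
  else if μ.1 = 2 then (if i < μ.2.1 then q - 1 else if i = μ.2.1 then min d (q - 2) else d)
  else (if i < μ.2.1 then 0 else if i = μ.2.1 then min d (q - 2) + 1 else d)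

/-- Coordinates `1..R` hold the digits of the time, `R+1..2R` those of the depth. -/
def piN (R q : ℕ) (μ : Mode × Mode) (i d : ℕ) : ℕ :=
  if 1 ≤ i ∧ i ≤ R then modeApp q μ.1 (i - 1) d
  else if R + 1 ≤ i ∧ i ≤ 2 * R then modeApp q μ.2 (i - 1 - R) d else d

/-- Atoms: hub `(0, q, 0)` = "label is `q`", `(1, k, a)` = "cell of stack `k` is `a`", `(2, 0, 0)` = accept. -/
abbrev Atom : Type := (ℕ × ℕ × ℕ) × Mode × Mode

/-- Number of rules. -/
def nRule (τ : GM) (q R : ℕ) : ℕ := 7 * GM.A τ * GM.A τ * GM.A τ * R * R * q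

/-- Rule number `ρ = ty + 7 (l + A (a + A (k + A (jt + R (jh + R p)))))` as (head, premise 1,
premise 2, axiom?). -/
def rule (τ : GM) (y : List Bool) (R ρ : ℕ) : Atom × Atom × Atom × Bool :=
  let A := GM.A τ
  let ty := ρ % 7
  let l := ρ / 7 % A
  let a := ρ / 7 / A % A
  let k := ρ / 7 / A / A % A
  let jt := ρ / 7 / A / A / A % R
  let jh := ρ / 7 / A / A / A / R % R
  let p := ρ / 7 / A / A / A / R / R
  let idm : Mode := (0, 0, 0)
  let z : Mode := (1, 0, 0)
  let ctrl : Atom := ((0, l, 0), (2, jt, 0), z)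
  let start : Atom := ((0, 0, 0), z, z)
  let o := if k = GM.stk τ l then GM.op τ l else 0
  if ty = 0 then (((0, GM.nxt τ l a, 0), (3, jt, 0), z), ctrl, ((1, GM.stk τ l, a), (2, jt, 0), z), false)
  else if ty = 1 then
    (((1, k, a), (3, jt, 0), if o = 0 then idm else if o = 1 then (2, jh, 0) else (3, jh, 0)), ctrl,
      ((1, k, a), (2, jt, 0), if o = 0 then idm else if o = 1 then (3, jh, 0) else (2, jh, 0)), false)
  else if ty = 2 then
    (if 2 ≤ GM.op τ l then ((1, GM.stk τ l, GM.op τ l - 1), (3, jt, 0), z) else ctrl, ctrl, ctrl, false)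
  else if ty = 3 then (start, start, start, true)
  else if ty = 4 then
    (((1, 0, (y.map fun b => b.toNat + 1).getD p 0), z, (1, 0, p)), start, start, true)
  else if ty = 5 then
    (if k = 0 ∧ jh = 0 then start else ((1, k, 0), z, if k = 0 then (0, jh, 1) else idm),
      start, start, true)
  else (((2, 0, 0), z, z), ((0, 1, 0), idm, z), ((0, 1, 0), idm, z), false)

/-- The accepting atom. -/
def accAtom : Atom := ((2, 0, 0), (1, 0, 0), (1, 0, 0))

/-- The identity modes. -/
def idModes : Mode × Mode := ((0, 0, 0), (0, 0, 0))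

theorem piN_idModes (R q i d : ℕ) : piN R q idModes i d = d := by
  simp only [piN, modeApp, idModes]
  split_ifs <;> simp

/-- The tableau Horn system of machine `τ` on input `y`, with `R` base-`q` digits for time and depth. -/
def gmHorn (τ : GM) (y : List Bool) (r q R : ℕ) [NeZero q] :
    Horn (Fin (nRule τ q R)) ℕ (ℕ × ℕ × ℕ) (Mode × Mode) (Fin q) r where
  ι i := i.val
  hd ρ := (rule τ y R ρ).1
  p1 ρ := (rule τ y R ρ).2.1
  p2 ρ := (rule τ y R ρ).2.2.1
  ax ρ := (rule τ y R ρ).2.2.2
  acc := accAtom
  idm := idModes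
  app μ i d := Fin.ofNat q (piN R q μ i.val d.val)
  app_id i d := by rw [piN_idModes]; exact Fin.ofNat_val_eq_self d

/-! ### The numeric construction -/

/-- Hub names. -/
abbrev HubN : Type := (ℕ × ℕ × ℕ) ⊕ ℕ × Bool

/-- Variable names. -/
abbrev VCode : Type := ℕ × HubN × List ℕ

/-- Slot data of junction number `a = 10 ρ + κ`. -/
def slotN (τ : GM) (y : List Bool) (R a s : ℕ) : HubN × Mode × Mode :=
  slotOf (rule τ y R (a / 10)).1 (rule τ y R (a / 10)).2.1 (rule τ y R (a / 10)).2.2.1 accAtom idModes
    (a / 10) (a % 10) s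

/-- Name of the zero variable. -/
def zeroC : VCode := (0, Sum.inl (0, 0, 0), [])

/-- Name of a wire variable. -/
def wireC (τ : GM) (y : List Bool) (q R a s j i d e : ℕ) : VCode :=
  if j = 0 then (1, (slotN τ y R a s).1,
    [i, piN R q (slotN τ y R a s).2 i d % q, piN R q (slotN τ y R a s).2 (i + 1) e % q])
  else (2, Sum.inl (0, 0, 0), [a, s, j, i, d, e])

/-- Name of a middle variable. -/
def midC (a s j i d e : ℕ) : VCode := (3, Sum.inl (0, 0, 0), [a, s, j, i, d, e])

/-- Name of a vertical variable. -/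
def vC (r a s j i d : ℕ) : VCode :=
  if i = 0 ∨ i = r then zeroC else (4, Sum.inl (0, 0, 0), [a, s, j, i, d])

/-- Number of equations. -/
def neN (τ : GM) (r q R : ℕ) : ℕ := 10 * nRule τ q R * 3 * (r + 3) * r * q * q * 2

/-- The variable in slot number `σ = 3 E + s`, where
`E = half + 2 (e + q (d + q (i + r (j + (r+3) (s₀ + 3 a)))))`. -/
def varN (τ : GM) (y : List Bool) (r q R σ : ℕ) : VCode :=
  let s := σ % 3
  let half := σ / 3 % 2
  let e := σ / 3 / 2 % q
  let d := σ / 3 / 2 / q % q
  let i := σ / 3 / 2 / q / q % r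
  let j := σ / 3 / 2 / q / q / r % (r + 3)
  let s₀ := σ / 3 / 2 / q / q / r / (r + 3) % 3
  let a := σ / 3 / 2 / q / q / r / (r + 3) / 3
  if j < r + 2 then
    (if half = 0 then
      (if s = 0 then wireC τ y q R a s₀ j i d e else if s = 1 then vC r a s₀ j i d else midC a s₀ j i d e)
    else
      (if s = 0 then midC a s₀ j i d e else if s = 1 then vC r a s₀ j (i + 1) e
        else wireC τ y q R a s₀ (j + 1) i d e))
  else if s₀ = 0 ∧ half = 0 ∧ usedOf (rule τ y R (a / 10)).2.2.2 (a % 10) s = true then
    wireC τ y q R a s (r + 2) i d e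
  else zeroC

/-- Equation `E` is a row-`0` goal-junction equation. -/
def isGoal (r q E : ℕ) : Prop :=
  E % 2 = 0 ∧ E / 2 / q / q % r = 0 ∧ E / 2 / q / q / r % (r + 3) = r + 2 ∧
    E / 2 / q / q / r / (r + 3) % 3 = 0 ∧ E / 2 / q / q / r / (r + 3) / 3 % 10 = 9

instance (r q E : ℕ) : Decidable (isGoal r q E) := by unfold isGoal; infer_instance

/-- Right-hand sides: all `0` for `fl = false`, `1` at the goal equations for `fl = true`. -/
def bN (r q : ℕ) (fl : Bool) (E : ℕ) : ZMod 2 := if fl = true ∧ isGoal r q E then 1 else 0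

/-- Number of vertices of the two subcubic graphs. -/
def nV (τ : GM) (r q R : ℕ) : ℕ := 37 * neN τ r q R

/-- Adjacency of the two subcubic graphs (`fl = false`: untwisted, `fl = true`: twisted). -/
noncomputable def adjN (τ : GM) (y : List Bool) (r q R : ℕ) (fl : Bool) : ℕ → ℕ → Bool :=
  cfiN (neN τ r q R) (varN τ y r q R) (bN r q fl)

/-- The side conditions of the construction. -/
structure Ok (τ : GM) (y : List Bool) (r q R : ℕ) : Prop where
  wf : GM.WF τ
  len : y.length < q
  two : 2 ≤ q
  one : 1 ≤ R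
  rows : 2 * R + 1 ≤ r

/-- Parameters in unary, for polynomial-time statements: `(τ, y, r, q, R)`. -/
abbrev Par : Type := GM × List Bool × List Unit × List Unit × List Unit

end Crest.Agent.R290
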