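/-
R290/GmSim: every `FinTM2` is simulated by a first-order machine `GM`; the interpreter is polynomial.
Skeleton by helper86; keep the statements of the theorems unchanged (add any helper lemmas you like).
Proof by helper68.
-/
import Crest.Agent.R290.Defs

set_option autoImplicit false

namespace Crest.Agent.R290

open Turing Crest.Agent.Lib.PolyTime Function

namespace GmSim

theorem exists_code {X : Type} {S : Set X} (hS : S.Finite) {a b : X} (hab : a ≠ b) :
    ∃ (c : X → ℕ) (d : ℕ → X) (N : ℕ), c a = 0 ∧ c b = 1 ∧ (∀ x, c x < N) ∧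
      ∀ x ∈ S, d (c x) = x := by
  classical
  refine ⟨fun x => (a :: b :: hS.toFinset.toList).idxOf x,
    fun n => (a :: b :: hS.toFinset.toList).getD n a, _, by simp, by simp [hab],
    fun x => Nat.lt_succ_of_le List.idxOf_le_length, fun x hx => ?_⟩
  have hx' : x ∈ a :: b :: hS.toFinset.toList := by simp [hx]
  beta_reduce
  rw [List.getD_eq_getElem _ _ (List.idxOf_lt_length_of_mem hx'), List.getElem_idxOf]

/-- One step of an abstract first-order stack machine. -/
def astep {L K Sym : Type} [DecidableEq K] (stk : L → K) (op : L → Option (Option Sym))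
    (nxt : L → Option Sym → L) (c : L × (K → List Sym)) : L × (K → List Sym) :=
  (nxt c.1 (c.2 (stk c.1)).head?,
    match op c.1 with
    | none => c.2
    | some none => update c.2 (stk c.1) (c.2 (stk c.1)).tail
    | some (some s) => update c.2 (stk c.1) (s :: c.2 (stk c.1)))

theorem getD_range_map {β : Type} (A : ℕ) (f : ℕ → β) (d : β) {q : ℕ} (hq : q < A) :
    ((List.range A).map f).getD q d = f q := by
  simp [List.getD_eq_getElem?_getD, hq]

theorem getD_range_map_prop {β : Type} (A : ℕ) (f : ℕ → β) (d : β) (P : β → Prop) (hd : P d)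
    (hf : ∀ q, P (f q)) (q : ℕ) : P (((List.range A).map f).getD q d) := by
  by_cases hq : q < A
  · rw [getD_range_map A f d hq]
    exact hf q
  · rw [List.getD_eq_default _ _ (by simpa using hq)]
    exact hd

theorem exists_gm_abs {L K Sym : Type} [Finite K] [DecidableEq K] (stk : L → K)
    (op : L → Option (Option Sym)) (nxt : L → Option Sym → L) {Ls : Set L} (hfin : Ls.Finite)
    (hcl : ∀ l ∈ Ls, ∀ o, nxt l o ∈ Ls) {l₀ la : L} (hne : l₀ ≠ la) (h0 : l₀ ∈ Ls) (ha : la ∈ Ls)
    (k₀ : K) (ι : Bool → Sym) (hι : ι false ≠ ι true) :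
    ∃ τ : GM, GM.WF τ ∧ ∀ x t, GM.lab τ x t = 1 ↔
      ((astep stk op nxt)^[t] (l₀, update (fun _ => []) k₀ (x.map ι))).1 = la := by
  obtain ⟨cL, dL, NL, cL0, cL1, cLN, hL⟩ := exists_code hfin hne
  let Ss : Set Sym := Set.range ι ∪ (fun s => some (some s)) ⁻¹' (op '' Ls)
  have hSs : Ss.Finite := (Set.finite_range ι).union
    ((hfin.image op).preimage fun _ _ _ _ h => by simpa using h)
  obtain ⟨cS, dS, NS, cS0, cS1, cSN, hS⟩ := exists_code hSs hι
  obtain ⟨cK, dK, NK, cK0, -, cKN, hK⟩ := exists_code (Set.finite_univ (α := Option K))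
    (Option.some_ne_none k₀)
  have cKinj : ∀ k k', cK (some k) = cK (some k') → k = k' := fun k k' h => by
    have := hK (some k) trivial
    rw [h, hK _ trivial] at this
    exact (Option.some.inj this).symm
  obtain ⟨A, hA⟩ : ∃ A, A = NL + NS + NK + 3 := ⟨_, rfl⟩
  let opc : Option (Option Sym) → ℕ := fun o => o.elim 0 fun o => o.elim 1 fun s => cS s + 2
  let top : ℕ → Option Sym := fun a => if a = 0 then none else some (dS (a - 1))
  let τ : GM := ((List.range A).map fun q => cK (some (stk (dL q))),
    (List.range A).map fun q => opc (op (dL q)),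
    (List.range A).map fun q => (List.range A).map fun a => cL (nxt (dL q) (top a)))
  have eA : GM.A τ = A := by simp [GM.A, τ]
  refine ⟨τ, ⟨by omega, fun q => ?_, fun q => ?_, fun q a => ?_⟩, fun x t => ?_⟩
  · rw [eA]
    exact getD_range_map_prop A _ 0 (· < A) (by omega) (fun q => by have := cKN (some (stk (dL q))); omega) q
  · rw [eA]
    refine getD_range_map_prop A _ 0 (· ≤ A) (by omega) (fun q => ?_) q
    rcases op (dL q) with _ | _ | s
    · simp [opc]
    · simp [opc, hA]
    · have := cSN s
      simp only [opc, Option.elim_some]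
      omega
  · rw [eA]
    refine getD_range_map_prop A _ [] (fun l => l.getD a 0 < A) (by simp; omega) (fun q => ?_) q
    exact getD_range_map_prop A _ 0 (· < A) (by omega)
      (fun a => by have := cLN (nxt (dL q) (top a)); omega) a
  let R : L × (K → List Sym) → ℕ × List (List ℕ) → Prop := fun c e =>
    c.1 ∈ Ls ∧ e.1 = cL c.1 ∧ e.2.length = A ∧ (∀ k, ∀ s ∈ c.2 k, s ∈ Ss) ∧
      ∀ k, e.2.getD (cK (some k)) [] = (c.2 k).map fun s => cS s + 1
  have hset : ∀ (S : K → List Sym) (st : List (List ℕ)) (k : K) (l : List Sym), st.length = A →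
      (∀ k, st.getD (cK (some k)) [] = (S k).map fun s => cS s + 1) →
      ∀ k', (st.set (cK (some k)) (l.map fun s => cS s + 1)).getD (cK (some k')) [] =
        (update S k l k').map fun s => cS s + 1 := by
    intro S st k l hlen h k'
    by_cases hk : k' = k
    · subst hk
      have := cKN (some k')
      simp [List.getD_eq_getElem?_getD, List.getElem?_set_self (show cK (some k') < st.length by omega)]
    · rw [update_of_ne hk, ← h k', List.getD_eq_getElem?_getD, List.getD_eq_getElem?_getD,
        List.getElem?_set_ne fun e => hk (cKinj _ _ e).symm]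
  have hstep : ∀ c e, R c e → R (astep stk op nxt c) (GM.step τ e) := by
    rintro ⟨l, S⟩ ⟨q, st⟩ ⟨h1, rfl : q = cL l, h3, h4, h5⟩
    have hq : cL l < A := by have := cLN l; omega
    have e1 : GM.stk τ (cL l) = cK (some (stk l)) := by
      rw [GM.stk, getD_range_map _ _ _ hq, hL l h1]
    have e2 : GM.op τ (cL l) = opc (op l) := by rw [GM.op, getD_range_map _ _ _ hq, hL l h1]
    have e3 : GM.nxt τ (cL l) ((st.getD (cK (some (stk l))) []).headD 0) =
        cL (nxt l (S (stk l)).head?) := by
      rw [GM.nxt, getD_range_map _ _ _ hq, hL l h1, h5]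
      have h6 := h4 (stk l)
      dsimp only at h6 ⊢
      generalize S (stk l) = w at h6 ⊢
      rcases w with _ | ⟨s, r⟩
      · rw [getD_range_map _ _ _ (by simp; omega)]
        simp [top]
      · have := cSN s
        rw [getD_range_map _ _ _ (by simp; omega)]
        simp [top, hS s (h6 s (by simp))]
    refine ⟨hcl l h1 _, ?_, ?_⟩
    · simp only [GM.step, e1, e3, astep]
    · simp only [GM.step, e1, e2, astep]
      rcases hop : op l with _ | _ | s
      · exact ⟨h3, h4, h5⟩
      · simp only [opc, Option.elim_some, Option.elim_none, one_ne_zero, if_false, if_true]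
        refine ⟨by simpa using h3, fun k s hs => ?_, ?_⟩
        · by_cases hk : k = stk l
          · subst hk
            exact h4 _ s (List.mem_of_mem_tail (by simpa using hs))
          · exact h4 k s (by simpa [update_of_ne hk] using hs)
        · rw [h5, ← List.map_tail]
          exact hset S st _ _ h3 h5
      · simp only [opc, Option.elim_some, show cS s + 2 ≠ 0 by omega, show cS s + 2 ≠ 1 by omega,
          if_false]
        refine ⟨by simpa using h3, fun k s' hs => ?_, ?_⟩
        · by_cases hk : k = stk l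
          · subst hk
            rw [update_self] at hs
            rcases List.mem_cons.1 hs with rfl | hs
            · exact Or.inr ⟨l, h1, hop⟩
            · exact h4 _ s' hs
          · exact h4 k s' (by simpa [update_of_ne hk] using hs)
        · rw [h5]
          exact hset S st _ (s :: S (stk l)) h3 h5
  have hR : R ((astep stk op nxt)^[t] (l₀, update (fun _ => []) k₀ (x.map ι)))
      ((GM.step τ)^[t] (GM.init τ x)) := by
    induction t with
    | zero =>
      refine ⟨h0, cL0.symm, by simp [GM.init, eA], fun k s hs => ?_, ?_⟩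
      · by_cases hk : k = k₀
        · subst hk
          obtain ⟨b, -, rfl⟩ : ∃ b ∈ x, ι b = s := by simpa using hs
          exact Or.inl ⟨b, rfl⟩
        · simp [update_of_ne hk] at hs
      · have := hset (fun _ => []) (List.replicate A []) k₀ (x.map ι) (by simp) fun k => by
          simp [List.getD_eq_getElem?_getD, List.getElem?_replicate]
          split_ifs <;> rfl
        rw [cK0, List.map_map, show ((fun s => cS s + 1) ∘ ι) = fun b => b.toNat + 1 from
          funext fun b => by cases b <;> simp [cS0, cS1]] at this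
        simpa only [GM.init, eA, iterate_zero_apply] using this
    | succ t ih =>
      rw [iterate_succ_apply', iterate_succ_apply']
      exact hstep _ _ ih
  rw [GM.lab, hR.2.1]
  constructor
  · intro h
    rw [← hL _ hR.1, h, ← cL1, hL _ ha]
  · intro h
    rw [h, cL1]

section TM
variable {K : Type} [DecidableEq K] {Γ : K → Type} {Λ σ : Type}

/-- Labels of the abstract machine. -/
abbrev ALab (Γ : K → Type) (Λ σ : Type) : Type := Option (TM2.Stmt Γ Λ σ × σ) ⊕ Bool

/-- The symbol of stack `k`. -/
def proj (k : K) (o : Option (Σ k, Γ k)) : Option (Γ k) :=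
  o.bind fun s => if h : s.1 = k then some (h ▸ s.2) else none

theorem proj_head (k : K) (l : List (Γ k)) : proj k (l.map (Sigma.mk k)).head? = l.head? := by
  cases l <;> simp [proj]

/-- The stack of a label. -/
def aStk (k₁ : K) : ALab Γ Λ σ → K
  | .inl (some (.push k _ _, _)) => k
  | .inl (some (.peek k _ _, _)) => k
  | .inl (some (.pop k _ _, _)) => k
  | _ => k₁

/-- The operation of a label. -/
def aOp : ALab Γ Λ σ → Option (Option (Σ k, Γ k))
  | .inl (some (.push k f _, v)) => some (some ⟨k, f v⟩)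
  | .inl (some (.pop _ _ _, _)) => some none
  | _ => none

/-- The next label. -/
def aNxt (M : Λ → TM2.Stmt Γ Λ σ) (k₁ : K) (acc : Option (Γ k₁) → Bool) :
    ALab Γ Λ σ → Option (Σ k, Γ k) → ALab Γ Λ σ
  | .inl (some (.push _ _ q, v)), _ => .inl (some (q, v))
  | .inl (some (.peek k f q, v)), o => .inl (some (q, f v (proj k o)))
  | .inl (some (.pop k f q, v)), o => .inl (some (q, f v (proj k o)))
  | .inl (some (.load a q, v)), _ => .inl (some (q, a v))
  | .inl (some (.branch f q₁ q₂, v)), _ => .inl (some (cond (f v) q₁ q₂, v))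
  | .inl (some (.goto f, v)), _ => .inl (some (M (f v), v))
  | .inl (some (.halt, _)), _ => .inl none
  | .inl none, o => .inr (acc (proj k₁ o))
  | .inr b, _ => .inr b

/-- The depth of a statement. -/
def depth : TM2.Stmt Γ Λ σ → ℕ
  | .push _ _ q => depth q + 1
  | .peek _ _ q => depth q + 1
  | .pop _ _ q => depth q + 1
  | .load _ q => depth q + 1
  | .branch _ q₁ q₂ => depth q₁ + depth q₂ + 1
  | .goto _ => 1
  | .halt => 1

/-- Uniform stacks. -/
def aStacks (S : ∀ k, List (Γ k)) : K → List (Σ k, Γ k) := fun k => (S k).map (Sigma.mk k)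

theorem aStacks_update (S : ∀ k, List (Γ k)) (k : K) (l : List (Γ k)) :
    aStacks (update S k l) = update (aStacks S) k (l.map (Sigma.mk k)) := by
  funext k'
  by_cases h : k' = k
  · subst h
    simp [aStacks]
  · simp [aStacks, update_of_ne h]

/-- The abstract configuration of a configuration. -/
def aCfg (M : Λ → TM2.Stmt Γ Λ σ) (c : TM2.Cfg Γ Λ σ) : ALab Γ Λ σ × (K → List (Σ k, Γ k)) :=
  (.inl (c.l.map fun l => (M l, c.var)), aStacks c.stk)

theorem sim_stepAux (M : Λ → TM2.Stmt Γ Λ σ) (k₁ : K) (acc : Option (Γ k₁) → Bool)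
    (q : TM2.Stmt Γ Λ σ) : ∀ (v : σ) (S : ∀ k, List (Γ k)), ∃ n ≤ depth q,
      (astep (aStk k₁) aOp (aNxt M k₁ acc))^[n] (.inl (some (q, v)), aStacks S) =
        aCfg M (TM2.stepAux q v S) := by
  induction q with
  | push k f q ih =>
    intro v S
    obtain ⟨n, hn, h⟩ := ih v (update S k (f v :: S k))
    refine ⟨n + 1, Nat.succ_le_succ hn, ?_⟩
    rw [iterate_succ_apply, TM2.stepAux, ← h, aStacks_update]
    rfl
  | peek k f q ih =>
    intro v S
    obtain ⟨n, hn, h⟩ := ih (f v (S k).head?) S
    refine ⟨n + 1, Nat.succ_le_succ hn, ?_⟩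
    rw [iterate_succ_apply, TM2.stepAux, ← h, ← proj_head]
    rfl
  | pop k f q ih =>
    intro v S
    obtain ⟨n, hn, h⟩ := ih (f v (S k).head?) (update S k (S k).tail)
    refine ⟨n + 1, Nat.succ_le_succ hn, ?_⟩
    rw [iterate_succ_apply, TM2.stepAux, ← h, ← proj_head, aStacks_update, List.map_tail]
    rfl
  | load a q ih =>
    intro v S
    obtain ⟨n, hn, h⟩ := ih (a v) S
    exact ⟨n + 1, Nat.succ_le_succ hn, h⟩
  | branch f q₁ q₂ ih₁ ih₂ =>
    intro v S
    obtain ⟨n₁, hn₁, h₁⟩ := ih₁ v S
    obtain ⟨n₂, hn₂, h₂⟩ := ih₂ v S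
    cases hf : f v
    · refine ⟨n₂ + 1, by simp only [depth]; omega, ?_⟩
      rw [iterate_succ_apply, TM2.stepAux, hf, cond_false, ← h₂]
      simp only [astep, aNxt, aOp, hf, cond_false]
    · refine ⟨n₁ + 1, by simp only [depth]; omega, ?_⟩
      rw [iterate_succ_apply, TM2.stepAux, hf, cond_true, ← h₁]
      simp only [astep, aNxt, aOp, hf, cond_true]
  | goto f => exact fun v S => ⟨1, le_rfl, rfl⟩
  | halt => exact fun v S => ⟨1, le_rfl, rfl⟩

theorem sim_steps (M : Λ → TM2.Stmt Γ Λ σ) (k₁ : K) (acc : Option (Γ k₁) → Bool) (D : ℕ)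
    (hD : ∀ l, depth (M l) ≤ D) (T : ℕ) : ∀ c c' : TM2.Cfg Γ Λ σ,
      (flip bind (TM2.step M))^[T] (some c) = some c' →
      ∃ n ≤ D * T, (astep (aStk k₁) aOp (aNxt M k₁ acc))^[n] (aCfg M c) = aCfg M c' := by
  induction T with
  | zero =>
    rintro c _ ⟨⟩
    exact ⟨0, le_rfl, rfl⟩
  | succ T ih =>
    rintro ⟨_ | l, v, S⟩ c' h
    · rw [iterate_succ_apply, show flip bind (TM2.step M) (some ⟨none, v, S⟩) = none from rfl,
        iterate_fixed rfl] at h
      cases h
    · obtain ⟨n, hn, h1⟩ := sim_stepAux M k₁ acc (M l) v S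
      obtain ⟨n', hn', h2⟩ := ih _ c' h
      refine ⟨n' + n, by have := hD l; rw [Nat.mul_succ]; omega, ?_⟩
      rw [iterate_add_apply, ← h2, ← h1]
      rfl

end TM

/-- Pop pairs from register `0`, pushing one bit of each pair on register `1`. -/
def halfP : Prog := .loop 0 (.seq (popP 0) (.push 1 false)) (.seq (popP 0) (.push 1 true))

theorem exec_half (l : List Bool) : ∀ S : Store, S 0 = l.flatMap (fun g => [g, g]) →
    Exec halfP S (update (update S 0 []) 1 (l.reverse ++ S 1)) (4 * l.length + 1) := by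
  induction l with
  | nil =>
    intro S h
    exact (Exec.loopNil h).of_eq (by store_eq) (by simp)
  | cons c l ih =>
    intro S h
    have h1 := exec_pop 0 (update S 0 (c :: l.flatMap fun g => [g, g])) c _ (update_self ..)
    rw [update_idem] at h1
    have h2 := ih (update (update S 0 (l.flatMap fun g => [g, g])) 1
      (c :: update S 0 (l.flatMap fun g => [g, g]) 1)) (by simp)
    cases c
    · exact (Exec.loopFalse h (h1.seq (Exec.push _ _ _)) h2).of_eq (by store_eq) (by simp; omega)
    · exact (Exec.loopTrue h (h1.seq (Exec.push _ _ _)) h2).of_eq (by store_eq) (by simp; omega)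

theorem runs_undup (x : List Bool) :
    Runs (.seq halfP (.seq (moveP 1 2) (moveP 2 0))) 3 (x.flatMap fun g => [g, g]).reverse x
      (8 * x.length + 3) := by
  intro S h0 h1
  have e1 := h1 1 (by omega) (by omega)
  have e2 := h1 2 (by omega) (by omega)
  have a := exec_half x.reverse S (by rw [h0, List.reverse_flatMap]; rfl)
  have b := exec_move (a := 1) (b := 2) (by omega) x
    (update (update S 0 []) 1 (x.reverse.reverse ++ S 1)) (by simp [e1])
  have c := exec_move (a := 2) (b := 0) (by omega) x.reverse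
    (update (update (update (update S 0 []) 1 (x.reverse.reverse ++ S 1)) 1 []) 2
      (x.reverse ++ update (update S 0 []) 1 (x.reverse.reverse ++ S 1) 2)) (by simp [e2])
  exact (a.seq (b.seq c)).of_eq (by store_eq) (by simp; omega)

theorem esize_getD_le {β : Type} [Enc β] (l : List β) (k : ℕ) (d : β) :
    esize (l.getD k d) ≤ max (esize l) (esize d) := by
  by_cases hk : k < l.length
  · rw [List.getD_eq_getElem _ _ hk]
    exact le_max_of_le_left (esize_lt_of_mem (List.getElem_mem hk)).le
  · rw [List.getD_eq_default _ _ (by omega)]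
    exact le_max_right _ _

theorem esize_set_le {β : Type} [Enc β] (l : List β) (k : ℕ) (d y : β) :
    esize (l.set k y) ≤ esize l + (esize y - esize (l.getD k d)) := by
  induction l generalizing k with
  | nil => simp
  | cons a l ih =>
    cases k with
    | zero => simp; omega
    | succ k => have := ih k; simp at this ⊢; omega

end GmSim

open GmSim

/-- Recipe.  Labels: pairs (sub-statement in `⋃ l, TM2.stmts₁ (tm.m l)`, internal state), plus `fin`
(look at the top of `k₁`, go to `acc` or `rej`), `acc`, `rej` (self-loops); number them by a list whose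
entries `0`, `1` are `(tm.m tm.main, initialState)` and `acc`.  Stacks: number `K` with `k₀ ↦ 0`.  Symbols:
a finite list of elements of `Σ k, Γ k` starting with `⟨k₀, ι false⟩, ⟨k₀, ι true⟩` and containing all
`f v` for sub-statements `push k f _`; code = index + 1.  One `GM` step executes one constructor
(`push`: op `code + 1`; `peek`: keep; `pop`: pop; `load`, `branch`, `goto`, `halt`: keep, constant table).
By induction on the statement, `stepAux` is simulated in at most (its depth) steps.  Tables are
`(List.range A).map ..` with `A` a common bound. -/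
theorem exists_gm (tm : FinTM2) (ι : Bool → tm.Γ tm.k₀) (hι : Function.Injective ι)
    (acc : Option (tm.Γ tm.k₁) → Prop) :
    ∃ (τ : GM) (c : ℕ), GM.WF τ ∧ ∀ (x : List Bool) (out : List (tm.Γ tm.k₁)) (T : ℕ),
      Nonempty (TM2OutputsInTime tm (x.map ι) (some out) T) →
      (acc out.head? → ∀ t, c * (T + 1) ≤ t → GM.lab τ x t = 1) ∧
      (¬ acc out.head? → ∀ t, GM.lab τ x t ≠ 1) := by
  classical
  let := tm.kFin
  let := tm.ΛFin
  let := tm.σFin
  let Q : Finset (TM2.Stmt tm.Γ tm.Λ tm.σ) := Finset.univ.biUnion fun l => TM2.stmts₁ (tm.m l)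
  have hQ : ∀ q ∈ Q, ∀ q' ∈ TM2.stmts₁ q, q' ∈ Q := fun q hq q' hq' => by
    obtain ⟨l, -, hl⟩ := Finset.mem_biUnion.1 hq
    exact Finset.mem_biUnion.2 ⟨l, Finset.mem_univ _, TM2.stmts₁_trans hl hq'⟩
  have hQm : ∀ l, tm.m l ∈ Q := fun l =>
    Finset.mem_biUnion.2 ⟨l, Finset.mem_univ _, TM2.stmts₁_self⟩
  let Ls : Set (ALab tm.Γ tm.Λ tm.σ) := {l | ∀ q v, l = .inl (some (q, v)) → q ∈ Q}
  have hfin : Ls.Finite := by
    refine ((((Q.finite_toSet.prod (Set.finite_univ (α := tm.σ))).image
      fun p => Sum.inl (some p)).insert (Sum.inl none)).union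
        (Set.finite_range Sum.inr)).subset ?_
    rintro ((_ | ⟨q, v⟩) | b) h
    · exact Or.inl (Or.inl rfl)
    · exact Or.inl (Or.inr ⟨(q, v), ⟨h q v rfl, trivial⟩, rfl⟩)
    · exact Or.inr ⟨b, rfl⟩
  obtain ⟨τ, hτ, h⟩ := exists_gm_abs (aStk tm.k₁) aOp (aNxt tm.m tm.k₁ fun o => decide (acc o)) hfin
    (l₀ := .inl (some (tm.m tm.main, tm.initialState))) (la := .inr true) (by
      rintro ((_ | ⟨q, v⟩) | b) h o q' v' e
      · cases e
      · have hq := hQ q (h q v rfl)
        cases q with
        | branch f q₁ q₂ =>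
          obtain ⟨rfl, -⟩ : cond (f v) q₁ q₂ = q' ∧ _ := by simpa [aNxt] using e
          cases f v <;> exact hq _ (by simp [TM2.stmts₁, TM2.stmts₁_self])
        | goto f =>
          obtain ⟨rfl, -⟩ : tm.m (f v) = q' ∧ _ := by simpa [aNxt] using e
          exact hQm _
        | halt => cases e
        | push _ _ q | peek _ _ q | pop _ _ q | load _ q =>
          obtain ⟨rfl, -⟩ : q = q' ∧ _ := by simpa [aNxt] using e
          exact hq _ (by simp [TM2.stmts₁, TM2.stmts₁_self])
      · cases e) (by simp) (by rintro _ _ ⟨⟩; exact hQm _) (by rintro _ _ ⟨⟩) tm.k₀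
    (fun b => ⟨tm.k₀, ι b⟩) (by simpa using hι.ne (by simp))
  refine ⟨τ, Finset.univ.sup (fun l => depth (tm.m l)) + 1, hτ, fun x out T ⟨hT⟩ => ?_⟩
  obtain ⟨n, hn, h1⟩ := sim_steps tm.m tm.k₁ (fun o => decide (acc o)) _
    (fun l => Finset.le_sup (f := fun l => depth (tm.m l)) (Finset.mem_univ l)) _ _ _
    hT.evals_in_steps
  have e0 : aCfg tm.m (initList tm (x.map ι)) = (.inl (some (tm.m tm.main, tm.initialState)),
      update (fun _ => []) tm.k₀ (x.map fun b => ⟨tm.k₀, ι b⟩)) := by
    refine Prod.ext rfl (funext fun k => ?_)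
    by_cases hk : k = tm.k₀
    · subst hk
      simp [aCfg, aStacks, initList]
    · simp [aCfg, aStacks, initList, hk]
  have absorb : ∀ (b : Bool) (m : ℕ) (c : ALab tm.Γ tm.Λ tm.σ × (tm.K → List (Σ k, tm.Γ k))),
      c.1 = .inr b →
      ((astep (aStk tm.k₁) aOp (aNxt tm.m tm.k₁ fun o => decide (acc o)))^[m] c).1 = .inr b := by
    intro b m c hc
    induction m with
    | zero => exact hc
    | succ m ih => rw [iterate_succ_apply', astep, ih]; rfl
  have e1 : ∀ t, n + 1 ≤ t → ((astep (aStk tm.k₁) aOp (aNxt tm.m tm.k₁ fun o => decide (acc o)))^[t]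
      (aCfg tm.m (initList tm (x.map ι)))).1 = .inr (decide (acc out.head?)) := fun t ht => by
    obtain ⟨m, rfl⟩ := Nat.exists_eq_add_of_le' ht
    rw [iterate_add_apply, iterate_succ_apply', h1]
    refine absorb _ _ _ ?_
    rw [← proj_head]
    simp [astep, aCfg, haltList, aNxt, aStk, aStacks]
  simp only [ne_eq, h, ← e0]
  refine ⟨fun ha t ht => ?_, fun ha t ht => ?_⟩
  · have := Nat.mul_le_mul_left (Finset.univ.sup fun l => depth (tm.m l)) hT.steps_le_m
    rw [e1 t (by nlinarith), decide_eq_true ha]
  · have := absorb true (n + 1) _ ht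
    rw [← iterate_add_apply, e1 _ (by omega), decide_eq_false ha] at this
    cases this

/-- A decider with a time bound, accepting value `val`. -/
theorem exists_gm_of_tm {α : Type} {ea : α → List Bool} {f : α → Bool}
    (M : TM2ComputableInTime ea Computability.encodeBool f) (val : Bool) :
    ∃ (τ : GM) (c : ℕ), GM.WF τ ∧ ∀ a,
      (f a = val → ∀ t, c * (M.time (ea a).length + 1) ≤ t → GM.lab τ (ea a) t = 1) ∧
      (f a ≠ val → ∀ t, GM.lab τ (ea a) t ≠ 1) := by
  obtain ⟨τ, c, hτ, h⟩ := exists_gm M.tm M.inputAlphabet.symm M.inputAlphabet.symm.injective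
    fun o => o = some (M.outputAlphabet.symm val)
  refine ⟨τ, c, hτ, fun a => ?_⟩
  have := h (ea a) _ _ ⟨M.outputsFun a⟩
  simpa [Computability.encodeBool] using this

/-- Per-input time.  From `CT f t` get a program `P` with `Runs P n (enc a).bits (enc (f a)).bits (t a)`;
prefix it with a small `Prog` turning the reversed two-bits-per-symbol transcription on register `0` back
into the input; `topTM_outputs Bool id id`; the output `(enc b).bits` starts with the bit `b`. -/
theorem exists_gm_of_CT {α : Type} [Enc α] {f : α → Bool} {t : α → ℕ} (h : CT f t) :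
    ∃ (τ : GM) (c : ℕ), GM.WF τ ∧ ∀ a,
      (f a = true → ∀ s, c * (t a + esize a + 1) ≤ s → GM.lab τ (enc a).bits s = 1) ∧
      (f a = false → ∀ s, GM.lab τ (enc a).bits s ≠ 1) := by
  obtain ⟨P, n, hP⟩ := h
  obtain ⟨τ, c, hτ, h⟩ := exists_gm (topTM Bool id id
    (.seq (.seq halfP (.seq (moveP 1 2) (moveP 2 0))) P)) id injective_id fun o => o = some true
  refine ⟨τ, 9 * c, hτ, fun a => ?_⟩
  have h1 := ((runs_undup (enc a).bits).mono (le_max_left 3 n) le_rfl).seq
    ((hP a).mono (le_max_right 3 n) le_rfl) (single _) (update_self ..)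
    fun k hk _ => update_of_ne hk.ne' ..
  rw [show ∀ x y, update (single x) 0 y = single y from fun x y => update_idem ..] at h1
  have h2 := topTM_outputs Bool id id _ _ _ _ h1
  rw [← List.map_id (enc a).bits] at h2
  replace h2 := h (enc a).bits _ _ h2
  rw [List.map_id] at h2
  have e : (enc a).bits.length = esize a := Tr.length_bits _
  refine ⟨fun hf s hs => h2.1 ?_ s (le_trans ?_ hs), fun hf => h2.2 ?_⟩
  · show (enc (f a)).bits.head? = some true
    rw [hf]
    rfl
  · rw [e, mul_comm 9, mul_assoc]
    exact Nat.mul_le_mul_left _ (by omega)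
  · show ¬(enc (f a)).bits.head? = some true
    rw [hf]
    rintro ⟨⟩

/-- The interpreter (uniform in the machine): `PT.iterate_inv` / `iterate_grow`; every step adds at most
one symbol taken from `τ`, and the label is an entry of `τ` or `0`. -/
theorem pt_gm_lab : PT fun p : GM × List Bool × List Unit => GM.lab p.1 p.2.1 p.2.2.length := by
  refine PT.fst (PT.iterate_grow (f := fun p : GM × List Bool × List Unit => GM.step p.1)
    (fun p => 2 * esize p.1 + 2) (by fun_prop) (by fun_prop)
    (by unfold GM.init GM.A; fun_prop)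
    (by unfold GM.step GM.nxt GM.op GM.stk; fun_prop) (by fun_prop) ?_)
  rintro ⟨⟨τ₁, τ₂, τ₃⟩, -⟩ ⟨q, st⟩
  have h1 := esize_getD_le (τ₃.getD q []) ((st.getD (τ₁.getD q 0) []).headD 0) 0
  have h2 := esize_getD_le τ₃ q []
  have h3 := esize_getD_le τ₂ q 0
  have h4 := esize_nat_mono (Nat.sub_le (τ₂.getD q 0) 1)
  have h5 := esize_sublist (List.tail_sublist (st.getD (τ₁.getD q 0) []))
  have h6 := esize_set_le st (τ₁.getD q 0) []
  have h7 := esize_pos q
  simp only [GM.step, GM.nxt, GM.op, GM.stk, esize_pair, esize_nat_zero, esize_nil] at *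
  split_ifs
  · omega
  · have := h6 (st.getD (τ₁.getD q 0) []).tail
    omega
  · have := h6 ((τ₂.getD q 0 - 1) :: st.getD (τ₁.getD q 0) [])
    rw [esize_cons] at this
    omega

end Crest.Agent.R290
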