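/-
R290/ExpAlg: the pebble game is decided in time polynomial in an exponential pad.
Skeleton by helper86; keep the statements of the theorems unchanged (add any helper lemmas you like).
-/
import Crest.Agent.R290.GameBasic

set_option autoImplicit false

namespace Crest.Agent.R290

open Crest.Agent.Lib.PolyTime

namespace ExpAlg

/-! ### Words over an alphabet -/

section Words
variable {β : Type}

/-- One more letter. -/
def wstep (A : List β) (L : List (List β)) : List (List β) :=
  [] :: A.flatMap fun a => L.map fun l => a :: l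

/-- All words of length `≤ k`. -/
def words (A : List β) (k : ℕ) : List (List β) := (wstep A)^[k] [[]]

/-- The same with every stage clipped to `P` entries. -/
def wordsC (P : ℕ) (A : List β) (k : ℕ) : List (List β) := (fun L => (wstep A L).take P)^[k] [[]]

theorem mem_words (A : List β) (k : ℕ) (l : List β) :
    l ∈ words A k ↔ l.length ≤ k ∧ ∀ x ∈ l, x ∈ A := by
  induction k generalizing l with
  | zero =>
    simp only [words, Function.iterate_zero, id_eq, List.mem_singleton, Nat.le_zero,
      List.length_eq_zero_iff]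
    exact ⟨fun h => ⟨h, by simp [h]⟩, fun h => h.1⟩
  | succ k ih =>
    have : words A (k + 1) = wstep A (words A k) := Function.iterate_succ_apply' _ _ _
    rw [this]
    cases l with
    | nil => simp [wstep]
    | cons x l =>
      simp only [wstep, List.mem_cons, reduceCtorEq, List.mem_flatMap, List.mem_map, List.cons.injEq,
        false_or, List.length_cons, Nat.add_le_add_iff_right, forall_eq_or_imp]
      constructor
      · rintro ⟨a, ha, l', hl', rfl, rfl⟩
        exact ⟨((ih _).1 hl').1, ha, ((ih _).1 hl').2⟩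
      · rintro ⟨h1, h2, h3⟩
        exact ⟨x, h2, l, (ih _).2 ⟨h1, h3⟩, rfl, rfl⟩

theorem length_wstep (A : List β) (L : List (List β)) :
    (wstep A L).length = A.length * L.length + 1 := by
  simp [wstep, List.length_flatMap]

theorem length_words (A : List β) (k : ℕ) : (words A k).length ≤ (A.length + 1) ^ k := by
  induction k with
  | zero => simp [words]
  | succ k ih =>
    have : words A (k + 1) = wstep A (words A k) := Function.iterate_succ_apply' _ _ _
    rw [this, length_wstep, pow_succ]
    have h1 : 1 ≤ (A.length + 1) ^ k := Nat.one_le_pow _ _ (by omega)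
    nlinarith

theorem wordsC_eq {P : ℕ} {A : List β} {k : ℕ} (h : (A.length + 1) ^ k ≤ P) :
    wordsC P A k = words A k := by
  induction k with
  | zero => rfl
  | succ k ih =>
    have e1 : words A (k + 1) = wstep A (words A k) := Function.iterate_succ_apply' _ _ _
    have e2 : wordsC P A (k + 1) = (wstep A (wordsC P A k)).take P :=
      Function.iterate_succ_apply' _ _ _
    rw [e2, ih ((Nat.pow_le_pow_right (by omega) (by omega)).trans h), ← e1]
    exact List.take_of_length_le ((length_words A (k + 1)).trans h)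

theorem wordsC_bound [Enc β] (P : ℕ) (A : List β) (k : ℕ) :
    (wordsC P A k).length ≤ P + 1 ∧ ∀ l ∈ wordsC P A k, esize l ≤ k * (esize A + 1) + 1 := by
  induction k with
  | zero => simp [wordsC]
  | succ k ih =>
    have e2 : wordsC P A (k + 1) = (wstep A (wordsC P A k)).take P :=
      Function.iterate_succ_apply' _ _ _
    rw [e2]
    refine ⟨by simp only [List.length_take]; omega, fun l hl => ?_⟩
    have hl' := List.mem_of_mem_take hl
    simp only [wstep, List.mem_cons, List.mem_flatMap, List.mem_map] at hl'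
    rcases hl' with rfl | ⟨a, ha, l', hl', rfl⟩
    · simp
    · have h1 := esize_lt_of_mem ha
      have h2 := ih.2 l' hl'
      rw [esize_cons]
      nlinarith

@[fun_prop] theorem wordsC_pt {α : Type} [Enc α] [Enc β] {P k : α → ℕ} {A : α → List β} (hP : PT P)
    (hP' : PB P) (hA : PT A) (hk : PT k) (hk' : PB k) : PT fun a => wordsC (P a) (A a) (k a) := by
  unfold wordsC
  refine PT.iterate (f := fun a L => (wstep (A a) L).take (P a))
    (fun a => (P a + 1) * (k a * (esize (A a) + 1) + 1 + 1) + 1) hk hk' (by fun_prop)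
    (by unfold wstep; fun_prop) (by fun_prop) fun a i hi => ?_
  obtain ⟨h1, h2⟩ := wordsC_bound (P a) (A a) i
  have h3 := esize_list_le h2
  refine h3.trans ?_
  gcongr

end Words

/-- An operator that only removes entries stabilises. -/
theorem iterate_fixed {α : Type} (f : List α → List α) (hf : ∀ W, (f W).Sublist W) (W : List α)
    {N : ℕ} (hN : W.length < N) : f (f^[N] W) = f^[N] W := by
  have key : ∀ i, f (f^[i] W) = f^[i] W ∨ (f^[i] W).length + i ≤ W.length := by
    intro i
    induction i with
    | zero => simp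
    | succ i ih =>
      rw [Function.iterate_succ_apply']
      by_cases h : f (f^[i] W) = f^[i] W
      · left; rw [h, h]
      · right
        have h1 := ih.resolve_left h
        have h2 := (hf (f^[i] W)).length_le
        have h3 : (f (f^[i] W)).length ≠ (f^[i] W).length := fun e => h ((hf _).eq_of_length e)
        omega
  rcases key N with h | h
  · exact h
  · omega

theorem iterate_sublist {α : Type} (f : List α → List α) (hf : ∀ W, (f W).Sublist W) (W : List α)
    (i : ℕ) : (f^[i] W).Sublist W := by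
  induction i with
  | zero => exact List.Sublist.refl _
  | succ i ih => rw [Function.iterate_succ_apply']; exact (hf _).trans ih

/-! ### The algorithm -/

/-- Partial isomorphisms between the two tables. -/
def PI (G H : List (List Bool)) (l : List (ℕ × ℕ)) : Prop :=
  ∀ p ∈ l, ∀ q ∈ l, (p.1 = q.1 ↔ p.2 = q.2) ∧
    (G.getD p.1 []).getD q.1 false = (H.getD p.2 []).getD q.2 false

/-- The condition for staying in the family. -/
def Keep (R : List ℕ) (K : ℕ) (L : List (List (ℕ × ℕ))) (Pm : List (List ℕ))
    (W : List (List (ℕ × ℕ))) (l : List (ℕ × ℕ)) : Prop :=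
  (∀ l' ∈ L, l' ⊆ l → l' ∈ W) ∧ (l.length < K → ∃ π ∈ Pm, ∀ z ∈ R, (z, π.getD z 0) :: l ∈ W)

open Classical in
/-- One round of pruning. -/
noncomputable def phi (R : List ℕ) (K : ℕ) (L : List (List (ℕ × ℕ))) (Pm : List (List ℕ))
    (W : List (List (ℕ × ℕ))) : List (List (ℕ × ℕ)) :=
  W.filter fun l => decide (Keep R K L Pm W l)

open Classical in
/-- The algorithm with explicit parameters. -/
def alg (P n K : ℕ) (G H : List (List Bool)) : Prop :=
  [] ∈ (phi (List.range n) K (wordsC P (List.range n ×ˢ List.range n) K)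
    ((wordsC P (List.range n) n).filter fun π => decide (π.length = n ∧ π.Nodup)))^[P + 1]
    ((wordsC P (List.range n ×ˢ List.range n) K).filter fun l => decide (PI G H l))

theorem phi_sublist (R : List ℕ) (K : ℕ) (L : List (List (ℕ × ℕ))) (Pm : List (List ℕ))
    (W : List (List (ℕ × ℕ))) : (phi R K L Pm W).Sublist W := List.filter_sublist

theorem mem_phi {R : List ℕ} {K : ℕ} {L : List (List (ℕ × ℕ))} {Pm : List (List ℕ)}
    {W : List (List (ℕ × ℕ))} {l : List (ℕ × ℕ)} :
    l ∈ phi R K L Pm W ↔ l ∈ W ∧ Keep R K L Pm W l := by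
  simp [phi]

theorem phi_pt : PT fun a : (List ℕ × ℕ × List (List (ℕ × ℕ)) × List (List ℕ)) × List (List (ℕ × ℕ)) =>
    phi a.1.1 a.1.2.1 a.1.2.2.1 a.1.2.2.2 a.2 := by
  have h : PT fun p : ((List ℕ × ℕ × List (List (ℕ × ℕ)) × List (List ℕ)) × List (List (ℕ × ℕ))) ×
      List (ℕ × ℕ) => Keep p.1.1.1 p.1.1.2.1 p.1.1.2.2.1 p.1.1.2.2.2 p.1.2 p.2 := by
    unfold Keep
    pt
  unfold phi
  exact PT.filter (by fun_prop) (@PT.decide _ _ _ (fun _ => Classical.propDecidable _) h)

theorem PI_pt : PT fun a : (List (List Bool) × List (List Bool)) × List (ℕ × ℕ) =>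
    PI a.1.1 a.1.2 a.2 := by
  unfold PI
  pt

theorem alg_pt {α : Type} [Enc α] {P n K : α → ℕ} {G H : α → List (List Bool)} (hP : PT P)
    (hP' : PB P) (hn : PT n) (hn' : PB n) (hK : PT K) (hK' : PB K) (hG : PT G) (hH : PT H) :
    PT fun a => alg (P a) (n a) (K a) (G a) (H a) := by
  classical
  unfold alg
  have hL : PT fun a => wordsC (P a) (List.range (n a) ×ˢ List.range (n a)) (K a) := by fun_prop
  have hPm : PT fun a => (wordsC (P a) (List.range (n a)) (n a)).filter
      fun π => decide (π.length = n a ∧ π.Nodup) := by fun_prop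
  have hW : PT fun a => (wordsC (P a) (List.range (n a) ×ˢ List.range (n a)) (K a)).filter
      fun l => decide (PI (G a) (H a) l) :=
    hL.filter (PI_pt.comp (g := fun p : α × List (ℕ × ℕ) => ((G p.1, H p.1), p.2)) (by fun_prop)).decide
  refine PT.mem_list (PT.const _) ?_
  refine PT.iterate (f := fun a W => phi (List.range (n a)) (K a)
    (wordsC (P a) (List.range (n a) ×ˢ List.range (n a)) (K a))
    ((wordsC (P a) (List.range (n a)) (n a)).filter fun π => decide (π.length = n a ∧ π.Nodup)) W)
    _ (by fun_prop) (by fun_prop) hW ?_ (PB.esize hW)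
    fun a i _ => esize_sublist (iterate_sublist _ (phi_sublist _ _ _ _) _ _)
  exact phi_pt.comp (g := fun p : α × List (List (ℕ × ℕ)) => ((List.range (n p.1), K p.1,
    wordsC (P p.1) (List.range (n p.1) ×ˢ List.range (n p.1)) (K p.1),
    (wordsC (P p.1) (List.range (n p.1)) (n p.1)).filter
      fun π => decide (π.length = n p.1 ∧ π.Nodup)), p.2))
    (PT.prodMk (PT.prodMk (by fun_prop) (PT.prodMk (by fun_prop)
      (PT.prodMk (hL.comp PT.fst') (hPm.comp PT.fst')))) PT.snd')

/-! ### Correctness -/

variable {n : ℕ}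

/-- A pair of vertices as a pair of numbers. -/
def pv (p : Fin n × Fin n) : ℕ × ℕ := (p.1.val, p.2.val)

theorem pv_inj : Function.Injective (pv (n := n)) := fun _ _ h =>
  Prod.ext (Fin.ext (Prod.ext_iff.1 h).1) (Fin.ext (Prod.ext_iff.1 h).2)

theorem mem_L {K : ℕ} {l : List (ℕ × ℕ)} :
    l ∈ words (List.range n ×ˢ List.range n) K ↔
      ∃ l' : List (Fin n × Fin n), l'.length ≤ K ∧ l'.map pv = l := by
  rw [mem_words]
  constructor
  · rintro ⟨h1, h2⟩
    have : ∃ l' : List (Fin n × Fin n), l'.map pv = l := by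
      clear h1
      induction l with
      | nil => exact ⟨[], rfl⟩
      | cons x l ih =>
        obtain ⟨l', rfl⟩ := ih fun y hy => h2 y (by simp [hy])
        obtain ⟨a, b⟩ := x
        have := h2 (a, b) (by simp)
        simp only [List.mem_product, List.mem_range] at this
        exact ⟨(⟨a, this.1⟩, ⟨b, this.2⟩) :: l', rfl⟩
    obtain ⟨l', rfl⟩ := this
    exact ⟨l', by simpa using h1, rfl⟩
  · rintro ⟨l', h1, rfl⟩
    refine ⟨by simpa using h1, fun x hx => ?_⟩
    obtain ⟨p, -, rfl⟩ := List.mem_map.1 hx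
    simp [pv]

theorem mem_Pm {π : List ℕ} :
    π ∈ ((words (List.range n) n).filter fun π => decide (π.length = n ∧ π.Nodup)) ↔
      ∃ e : Fin n ≃ Fin n, π = List.ofFn fun z => (e z).val := by
  simp only [List.mem_filter, mem_words, List.mem_range, decide_eq_true_eq]
  constructor
  · rintro ⟨⟨-, h2⟩, h3, h4⟩
    subst h3
    let f : Fin π.length → Fin π.length := fun z => ⟨π.get z, h2 _ (List.get_mem _ _)⟩
    have hf : Function.Injective f := fun a b h =>
      List.nodup_iff_injective_get.1 h4 (congrArg Fin.val h)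
    exact ⟨Equiv.ofBijective f (Finite.injective_iff_bijective.1 hf), (List.ofFn_get π).symm⟩
  · rintro ⟨e, rfl⟩
    refine ⟨⟨by simp, fun x hx => ?_⟩, by simp, ?_⟩
    · obtain ⟨z, rfl⟩ := List.mem_ofFn.1 hx
      exact (e z).isLt
    · exact List.nodup_ofFn.2 (Fin.val_injective.comp e.injective)

theorem getD_ofFn (e : Fin n ≃ Fin n) (z : Fin n) :
    (List.ofFn fun z => (e z).val).getD z.val 0 = (e z).val := by
  simp [List.getD_eq_getElem?_getD]

theorem PI_map {G H : Fin n → Fin n → Bool} {l : List (Fin n × Fin n)} :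
    PI (rowsOf G) (rowsOf H) (l.map pv) ↔
      ∀ p ∈ l, ∀ q ∈ l, (p.1 = q.1 ↔ p.2 = q.2) ∧ (mat G p.1 q.1 ↔ mat H p.2 q.2) := by
  simp only [PI, List.forall_mem_map, pv, getD_rowsOf, Fin.val_inj, mat, Bool.coe_iff_coe]

theorem alg_iff {P K : ℕ} {G H : Fin n → Fin n → Bool} (h1 : (n * n + 1) ^ K ≤ P)
    (h2 : (n + 1) ^ n ≤ P) : alg P n K (rowsOf G) (rowsOf H) ↔ Game K (mat G) (mat H) := by
  classical
  unfold alg
  have hlen : (List.range n ×ˢ List.range n).length = n * n := by simp [List.length_product]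
  rw [wordsC_eq (by rw [hlen]; exact h1), wordsC_eq (by simpa using h2)]
  set L := words (List.range n ×ˢ List.range n) K with hL
  set Pm := (words (List.range n) n).filter fun π => decide (π.length = n ∧ π.Nodup) with hPm
  set W₀ := L.filter fun l => decide (PI (rowsOf G) (rowsOf H) l) with hW₀
  constructor
  · intro h0
    have hfix := iterate_fixed _ (phi_sublist (List.range n) K L Pm) W₀ (N := P + 1) (by
      have e1 : W₀.length ≤ L.length := List.length_filter_le _ _
      have e2 := length_words (List.range n ×ˢ List.range n) K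
      rw [hlen, ← hL] at e2
      omega)
    have hsub := (iterate_sublist _ (phi_sublist (List.range n) K L Pm) W₀ (P + 1)).subset
    generalize (phi (List.range n) K L Pm)^[P + 1] W₀ = W at h0 hfix hsub
    have hkeep : ∀ l ∈ W, Keep (List.range n) K L Pm W l := fun l hl =>
      (mem_phi.1 (hfix.symm ▸ hl)).2
    have hPI : ∀ l : List (Fin n × Fin n), l.map pv ∈ W →
        ∀ p ∈ l, ∀ q ∈ l, (p.1 = q.1 ↔ p.2 = q.2) ∧ (mat G p.1 q.1 ↔ mat H p.2 q.2) := by
      intro l hl
      have := (List.mem_filter.1 (hsub hl)).2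
      exact PI_map.1 (by simpa using this)
    refine ⟨fun l => ∃ l₀ : List (Fin n × Fin n), l₀.map pv ∈ W ∧ l ⊆ l₀, ⟨[], h0, by simp⟩, ?_, ?_, ?_,
      ?_⟩
    · rintro l l' ⟨l₀, h3, h4⟩ h5
      exact ⟨l₀, h3, List.Subset.trans h5 h4⟩
    · rintro l p q ⟨l₀, h3, h4⟩ hp hq
      exact (hPI l₀ h3 p (h4 hp) q (h4 hq)).1
    · rintro l p q ⟨l₀, h3, h4⟩ hp hq
      exact (hPI l₀ h3 p (h4 hp) q (h4 hq)).2
    · rintro l ⟨l₀, h3, h4⟩ hl
      have h5 : l.map pv ∈ W := (hkeep _ h3).1 _ (mem_L.2 ⟨l, hl.le, rfl⟩) (List.map_subset _ h4)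
      obtain ⟨π, hπ, h6⟩ := (hkeep _ h5).2 (by simpa using hl)
      obtain ⟨e, rfl⟩ := mem_Pm.1 hπ
      refine ⟨e, fun z => ⟨(z, e z) :: l, ?_, List.Subset.refl _⟩⟩
      have := h6 z.val (List.mem_range.2 z.isLt)
      rw [getD_ofFn] at this
      exact this
  · rintro ⟨W, hW⟩
    have key : ∀ i (l : List (Fin n × Fin n)), W l → l.length ≤ K →
        l.map pv ∈ (phi (List.range n) K L Pm)^[i] W₀ := by
      intro i
      induction i with
      | zero =>
        intro l hl hlen
        refine List.mem_filter.2 ⟨mem_L.2 ⟨l, hlen, rfl⟩, ?_⟩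
        simp only [decide_eq_true_eq]
        exact PI_map.2 fun p hp q hq => ⟨hW.eq_iff hl hp hq, hW.adj hl hp hq⟩
      | succ i ih =>
        intro l hl hlen
        rw [Function.iterate_succ_apply', mem_phi]
        refine ⟨ih l hl hlen, fun l' hl' hs => ?_, fun hlt => ?_⟩
        · obtain ⟨l'', h3, rfl⟩ := mem_L.1 hl'
          exact ih l'' (hW.sub hl ((List.map_subset_iff _ pv_inj).1 hs)) h3
        · have hlt' : l.length < K := by simpa using hlt
          obtain ⟨e, he⟩ := hW.ext hl hlt'
          refine ⟨_, mem_Pm.2 ⟨e, rfl⟩, fun z hz => ?_⟩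
          have := ih _ (he ⟨z, List.mem_range.1 hz⟩) (by simpa using hlt')
          rw [getD_ofFn e ⟨z, List.mem_range.1 hz⟩]
          exact this
    exact key (P + 1) [] hW.nil (Nat.zero_le _)

theorem game_min {K : ℕ} {G H : Fin n → Fin n → Prop} : Game (min K (n + 1)) G H ↔ Game K G H := by
  rcases le_total K (n + 1) with h | h
  · rw [min_eq_left h]
  · rw [min_eq_right h]
    refine ⟨fun hg => ?_, fun hg => hg.mono h⟩
    obtain ⟨e, he⟩ := hg.iso_of_card (by omega) (by simp)
    exact Game.of_iso K e he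

end ExpAlg

/-- Recipe.  Let `n = G.length`, `K' = min K (n + 1)` (`Game K ↔ Game K'` by `iso_of_card`, `of_iso`,
`mono`).  `L` = all lists of length `≤ K'` of pairs of numbers `< n` (built by `K'` rounds of
`flatMap`, each clipped by `take pad.length`; at most `(n² + 1)^(n+1)` lists), `Π` = all duplicate-free
lists of length `n` over `range n`.  `W₀` = the partial isomorphisms in `L`;
`W ↦ W.filter fun l => ∀ l' ∈ L, l' ⊆ l → l'.length < K' → ∃ π ∈ Π, ∀ z < n, (z, π[z]) :: l' ∈ W`,
iterated `pad.length` times (sizes do not grow); it stabilises at some round `≤ L.length`; answer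
`[] ∈ W`.  Soundness: the stable `W` gives `Win` via `fun l => ∀ l' , l' ⊆ l → l'.length ≤ K' → (vals of l') ∈ W`
(note `W_i` is closed under `⊆` inside `L`); completeness: a winning family stays inside every `W_i`.
All loops are bounded by `pad.length` or by `min`-clipped numbers so that the function is `PT` on all
inputs (see `Crest.Agent.R301.PTent` for clipping idioms). -/
theorem exists_gameAlg :
    ∃ F : (ℕ × List (List Bool) × List (List Bool)) × List Unit → Prop, PT F ∧
      ∀ (K n : ℕ) (G H : Fin n → Fin n → Bool) (pad : List Unit), 2 ^ (n + 2) ^ 4 ≤ pad.length →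
        (F ((K, rowsOf G, rowsOf H), pad) ↔ Game K (mat G) (mat H)) := by
  refine ⟨fun a => ExpAlg.alg a.2.length a.1.2.1.length (min a.1.1 (a.1.2.1.length + 1)) a.1.2.1 a.1.2.2,
    ExpAlg.alg_pt (by fun_prop) (by fun_prop) (by fun_prop) (by fun_prop) (by fun_prop) (by fun_prop)
      (by fun_prop) (by fun_prop), fun K n G H pad hpad => ?_⟩
  simp only [length_rowsOf]
  have e1 : (n * n + 1) ^ (n + 1) ≤ 2 ^ (n + 2) ^ 4 := by
    calc (n * n + 1) ^ (n + 1) ≤ (2 ^ (n * n)) ^ (n + 1) :=
          Nat.pow_le_pow_left (Nat.succ_le_of_lt Nat.lt_two_pow_self) _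
      _ = 2 ^ (n * n * (n + 1)) := by rw [← pow_mul]
      _ ≤ 2 ^ (n + 2) ^ 4 := Nat.pow_le_pow_right (by omega) (by
          calc n * n * (n + 1) ≤ (n + 2) * (n + 2) * (n + 2) := by gcongr <;> omega
            _ = (n + 2) ^ 3 := by ring
            _ ≤ (n + 2) ^ 4 := Nat.pow_le_pow_right (by omega) (by omega))
  have e2 : (n + 1) ^ n ≤ 2 ^ (n + 2) ^ 4 := by
    calc (n + 1) ^ n ≤ (2 ^ n) ^ n := Nat.pow_le_pow_left (Nat.succ_le_of_lt Nat.lt_two_pow_self) _
      _ = 2 ^ (n * n) := by rw [← pow_mul]
      _ ≤ 2 ^ (n + 2) ^ 4 := Nat.pow_le_pow_right (by omega) (by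
          calc n * n ≤ (n + 2) * (n + 2) := by gcongr <;> omega
            _ = (n + 2) ^ 2 := by ring
            _ ≤ (n + 2) ^ 4 := Nat.pow_le_pow_right (by omega) (by omega))
  rw [ExpAlg.alg_iff (((Nat.pow_le_pow_right (by omega) (min_le_right _ _)).trans e1).trans hpad)
    (e2.trans hpad), ExpAlg.game_min]

end Crest.Agent.R290
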